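import Vale.Agent.P154.KrDef

/-! Antiferromagnetic case: the checker for the outer region (definitions only). -/

namespace Vale.Agent.P154

structure V8 where
  x0 : ℕ
  x1 : ℕ
  x2 : ℕ
  x3 : ℕ
  x4 : ℕ
  x5 : ℕ
  x6 : ℕ
  x7 : ℕ

namespace V8

def get (u : V8) : Fin 8 → ℕ := ![u.x0, u.x1, u.x2, u.x3, u.x4, u.x5, u.x6, u.x7]

noncomputable def dot (u v : V8) : ℕ :=
  V8.rec (fun a0 a1 a2 a3 a4 a5 a6 a7 => V8.rec (fun b0 b1 b2 b3 b4 b5 b6 b7 =>
    Nat.add (Nat.add (Nat.add (Nat.mul a0 b0) (Nat.mul a1 b1))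
      (Nat.add (Nat.mul a2 b2) (Nat.mul a3 b3)))
      (Nat.add (Nat.add (Nat.mul a4 b4) (Nat.mul a5 b5))
      (Nat.add (Nat.mul a6 b6) (Nat.mul a7 b7)))) v) u

noncomputable def sum (u : V8) : ℕ :=
  V8.rec (fun a0 a1 a2 a3 a4 a5 a6 a7 =>
    Nat.add (Nat.add (Nat.add a0 a1) (Nat.add a2 a3)) (Nat.add (Nat.add a4 a5) (Nat.add a6 a7))) u

noncomputable def map2 (f : ℕ → ℕ → ℕ) (u v : V8) : V8 :=
  V8.rec (fun a0 a1 a2 a3 a4 a5 a6 a7 => V8.rec (fun b0 b1 b2 b3 b4 b5 b6 b7 =>
    ⟨f a0 b0, f a1 b1, f a2 b2, f a3 b3, f a4 b4, f a5 b5, f a6 b6, f a7 b7⟩) v) u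

def of (f : ℕ → ℕ) : V8 := ⟨f 0, f 1, f 2, f 3, f 4, f 5, f 6, f 7⟩

end V8

/-- evaluates `n` before it is passed on -/
noncomputable def frc (n : ℕ) (k : ℕ → Bool) : Bool :=
  Nat.rec (motive := fun _ => Bool) (k 0) (fun m _ => k (Nat.succ m)) n
noncomputable def band (a b : Bool) : Bool := Bool.rec false b a
def nmin (a b : ℕ) : ℕ := Nat.sub a (Nat.sub a b)
def nmax (a b : ℕ) : ℕ := Nat.add a (Nat.sub b a)
def nabs (a b : ℕ) : ℕ := Nat.add (Nat.sub a b) (Nat.sub b a)
def p6 (a : ℕ) : ℕ := Nat.pow a 6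

/-! cosine and sine of `3 log (u / v)`, shifted by one, scale `2^40` -/

def hs (w c h : ℕ) : ℕ := Nat.add c (Nat.shiftRight (Nat.mul w h) 40)
def nsx (p k h : ℕ) : ℕ := Nat.sub 1099511627776 (Nat.div (Nat.mul p h) k)
def atn (w : ℕ) : ℕ :=
  hs w 1099511627776 (hs w 366503875925 (hs w 219902325555 (hs w 157073089682 (hs w 122167958641
    (hs w 99955602525 (hs w 84577817521 (hs w 73300775185 64677154575)))))))
def cosn (p : ℕ) : ℕ :=
  nsx p 2199023255552 (nsx p 13194139533312 (nsx p 32985348833280 (nsx p 61572651155456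
    (nsx p 98956046499840 (nsx p 145135534866432 1099511627776)))))
def sinn (p : ℕ) : ℕ :=
  nsx p 6597069766656 (nsx p 21990232555520 (nsx p 46179488366592 (nsx p 79164837199872
    (nsx p 120946279055360 1099511627776))))
def csD (c s : ℕ) : ℕ × ℕ :=
  (Nat.shiftRight (Nat.mul c c) 39, Nat.add 1099511627776 (Nat.shiftRight (Nat.mul c s) 39))
def csP (f p : ℕ) : ℕ × ℕ := csD (cosn p) (Nat.shiftRight (Nat.mul f (sinn p)) 40)
def csF (f : ℕ) : ℕ × ℕ := csP f (Nat.shiftRight (Nat.mul f f) 40)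
def csB (z : ℕ) : ℕ × ℕ :=
  csF (Nat.shiftRight (Nat.mul (Nat.mul 3 z) (atn (Nat.shiftRight (Nat.mul z z) 40))) 40)
noncomputable def rot (x : ℕ × ℕ) : ℕ × ℕ :=
  Prod.rec (fun c s =>
    (Nat.sub 2595286696161
      (Nat.shiftRight (Nat.add (Nat.mul 535456025215 c) (Nat.mul 960319043170 s)) 40),
    Nat.shiftRight (Nat.sub (Nat.add 741783991161103209988096 (Nat.mul 960319043170 c))
      (Nat.mul 535456025215 s)) 40)) x
noncomputable def csR (u k : ℕ) : ℕ → ℕ × ℕ :=
  Nat.rec (motive := fun _ => ℕ → ℕ × ℕ) (fun _ => (0, 0))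
    (fun _ r v => Bool.rec (csB (Nat.div (Nat.shiftLeft (Nat.sub u v) 40) (Nat.add u v)))
      (rot (r (Nat.mul 2 v))) (Nat.ble (Nat.succ (Nat.mul 2 v)) u)) k
noncomputable def cs (u v : ℕ) : ℕ × ℕ := csR u 22 v
noncomputable def csOK (u v : ℕ) : Bool :=
  Bool.rec (band (Nat.ble v u) (Nat.ble u (Nat.shiftLeft v 21))) true (Nat.beq v 0)
/-- cosine of the sum of two angles -/
def c3 (a b c d : ℕ) : ℕ :=
  Nat.shiftRight (Nat.sub
    (Nat.add (Nat.mul a c) (Nat.shiftLeft (Nat.add 1099511627776 (Nat.add b d)) 40))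
    (Nat.add (Nat.mul b d) (Nat.shiftLeft (Nat.add a c) 40))) 40

/-! sixth roots -/

def hal (x5 x7 y y6 : ℕ) : ℕ :=
  Nat.div (Nat.mul y (Nat.add (Nat.mul 5 y6) x7)) (Nat.add (Nat.mul 7 y6) x5)
def hal1 (x5 x7 y : ℕ) : ℕ := hal x5 x7 y (Nat.pow y 6)
def rtT : ℕ := 118964072161538332562326243637512475328724489020874760082865827056825137065216441834097385202147296704831690916303683353144250211633140979275066566513609301687689467324379307490867278643216860133853234589676487887669646869391440574237696551102447168945386379098415568176999444751617089182586507286928314671883644544179072176695092034644740773765933177505230586471628098468025441873762280503345686267009024458658022068166784952707477120629143822954954569595163522931906516416506333300230444127049085358944599633786662747378919866317428932014812700707984121225792423264099858790898894866005236909323550934026452084648577345251909111838010935569002072267396212220906732803382764647659987269650955165932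8468112948539154822593875477696504399944190307032975178713824772884135233117174763636595065121065836434551159528249073944371379175022078691411793149622689187028223735868171869190427057913298827686220285534614550939025024093925584430619073862382465452170334418227327076022529289256137873121960923113634259526849429961257374228780553559697531789006779366536481002083251236346358952163073594428606933952237753090535819759527511854582128675039466674833895844664726578822392701281238092458920286704236416353192697964336549615581124225012255358415512021619678614381550318385866472680726530214236618192971246230030646962126753859175424159083087798543404653832805098945075035580257395518953702872789113235105867875336402595295899353927321843466423008694054116055092920033085542316348922331870994443042369879018866990798433350879095785131200662552749765199626285509482771957447030263665539554119464404797494825121132705369525621677387047019024765442797114766830641721807754164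2047966108063302924500204137115221061501614951411491243047075809884437468979455218977939136523796817415361326531277247073919520127298589813403906116862543532116700907576114794265702229711641449114648760642054076083460615251405601732237984254931042480015754582145724157438611925914491144968097573189732527632360262058517823436489118353829343210816767546953071458469389381127738144680070337508631334105293741936297827006256621727111411964326759542914607808877573869858934527812709668400686927798522596722908937924511872780016675811140504297062848852299810282790199666840862502562091237435499669260865282831982016905747955611919517478583311611889734475600499362054757225006556932921204518330981105363352695806903794011891111371524823447698514106036644204193477064766976944383598963233775453379191091793571615158497379390401638989071460134434285798805356216690599669408366684585896175867449615928334801251611907922087180390606387590060851101155027410349713455174768271758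2929016569712758639672840856389143028179101401757532327322677546853183060420770555300827133418335586717449847814015591543179780347770926497443612434691279596450117926512159458447233323379606269055325160688066035345449246629631496032793549917645758983325695770193388054271520864807469113258256448464049201669699329841992085451386094728135572803782723102601534322430564379676435068253037254903248112390491736869926317402540137060004032320965008872336208373137792274535444580773076451443517125947040728913689390892906633047354242080942176036853057669331454986539379307196948819659777463150136579436450350406900714619969774325263892346309908124158988572023478142015466766379596462038382812301865802441899459271700672739399016321906109903852607922187301424366467121773231010901409134668817467609536654274596221819451134346969691845894941509650104442169175314628334458587984086481306177178053581222805468304080976229817515682812539642042899163822111991949170983332110191454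6692671595320400069430500821228196406005836496041724811944664156571319289434387030544374000183711053248593607049441996084766860437460542446352681322414829183868259826130256587118225669571701218587854992954072905538751176840107357480089800410767790019814401173355924749735040712889071734194353580077215786345525763667158524910403190039113786215235995485204279848882760332113084553628676198008265461055913645205965987102601806879900046735897991726421222522137053038997178698940909924101270053569240148892863973573342792881424875191465649601043723245900633587683096402334014107689479538925566594001015805100855269177783261728699088486050035505064145070411499437559899469675725740787189809169304088600964871958144014611264171099212502656560801897441747978064695979437437024749727503081789295016019285196236917442932860557027271858933521291874975124667489560747354035546440008860446095441106322286172026474618067862327427611608728110405223209909349782508566737082068674176589970346778173825028730767635171385224879239658840820572334383481878224411121615899998204659956993504034113086188219507278805955489102607940995783761407684139517308324311758191703139891444667365347000928135250017163992458095830022778747922516511614044023143773104480327832895300275339232610531343165159348645500534217791650394758217268557555263826887788880034004992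
noncomputable def rt0 (X k : ℕ) : ℕ :=
  Nat.rec (motive := fun _ => ℕ) 0 (fun m r => Bool.rec r
    (Nat.shiftRight (Nat.shiftLeft (Nat.land (Nat.shiftRight rtT
      (Nat.mul 16 (Nat.shiftRight X (Nat.sub (Nat.mul 6 m) 4)))) 65535) m) 15)
    (Nat.ble (Nat.shiftLeft 1 (Nat.mul 6 m)) X)) k
def rt1 (x5 x7 y : ℕ) : ℕ := Nat.sub (hal1 x5 x7 (hal1 x5 x7 y)) 1
noncomputable def rt (X : ℕ) : ℕ := rt1 (Nat.mul 5 X) (Nat.mul 7 X) (rt0 X 49)
noncomputable def rtK (X y5 y6 : ℕ) : Bool :=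
  band (Nat.ble y6 X) (Nat.ble X (Nat.add y6 (Nat.mul 24 y5)))
noncomputable def rtJ (X y y5 : ℕ) : Bool := rtK X y5 (Nat.mul y5 y)
noncomputable def rtOK (X y : ℕ) : Bool := rtJ X y (Nat.pow y 5)

/-! values of the eight functions -/

noncomputable def val3 (u : Bool) (s dn e2 h1 h2 h3 hh xJ xI xK xL : ℕ) (ca cb : ℕ × ℕ) : V8 :=
  ⟨Nat.div (Nat.sub s (Nat.mul 6 e2)) dn, Nat.div (Nat.sub s hh) dn, Nat.div (Nat.sub s xJ) dn,
    Nat.div (Nat.sub s xI) dn, Nat.div (Nat.sub s xK) dn, Nat.div (Nat.sub s xL) dn,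
    Bool.rec 0 (Nat.div (Nat.shiftRight (Nat.sub (Nat.shiftLeft (Nat.add s (Nat.mul 6 e2)) 40)
      (Nat.mul (Nat.mul 2 e2) (Nat.add (Nat.add ca.1 cb.1) (c3 ca.1 ca.2 cb.1 cb.2)))) 40) dn) u,
    Bool.rec 0 (Nat.div (Nat.shiftRight (Nat.sub (Nat.shiftLeft (Nat.add s hh) 40)
      (Nat.mul 2 (Nat.add (Nat.add (Nat.mul h1 ca.1) (Nat.mul h3 cb.1))
        (Nat.mul h2 (c3 ca.1 ca.2 cb.1 cb.2))))) 40) dn) u⟩
noncomputable def val2 (u : Bool) (s dn a b c a2 b2 c2 a3 b3 c3' a4 b4 c4 e bc ac ab h1 h2 h3 : ℕ)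
    (ca cb : ℕ × ℕ) : V8 :=
  val3 u s dn (Nat.mul e e) h1 h2 h3 (Nat.mul 2 (Nat.add (Nat.add h1 h2) h3))
    (Nat.add (Nat.add (Nat.mul a4 (Nat.add b2 c2)) (Nat.mul b4 (Nat.add a2 c2)))
      (Nat.mul c4 (Nat.add a2 b2)))
    (Nat.add (Nat.add (Nat.mul (Nat.mul a4 a) bc) (Nat.mul (Nat.mul b4 b) ac))
      (Nat.mul (Nat.mul c4 c) ab))
    (Nat.mul (Nat.mul 2 e) (Nat.add (Nat.add a3 b3) c3'))
    (Nat.mul e (Nat.add (Nat.add (Nat.mul a2 bc) (Nat.mul b2 ac)) (Nat.mul c2 ab))) ca cb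
noncomputable def val1 (u : Bool) (s dn a b c a2 b2 c2 a3 b3 c3' : ℕ) (ca cb : ℕ × ℕ) : V8 :=
  val2 u s dn a b c a2 b2 c2 a3 b3 c3' (Nat.mul a2 a2) (Nat.mul b2 b2) (Nat.mul c2 c2)
    (Nat.mul (Nat.mul a b) c) (Nat.add b c) (Nat.add a c) (Nat.add a b)
    (Nat.mul a3 b3) (Nat.mul a3 c3') (Nat.mul b3 c3') ca cb
noncomputable def val0 (u : Bool) (s dn a b c a2 b2 c2 : ℕ) (ca cb : ℕ × ℕ) : V8 :=
  val1 u s dn a b c a2 b2 c2 (Nat.mul a2 a) (Nat.mul b2 b) (Nat.mul c2 c) ca cb
/-- approximations of `(s - X_i (a, b, c)) / dn`; `ca`, `cb` belong to the pairs `a b`, `b c` -/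
noncomputable def vals (u : Bool) (s dn a b c : ℕ) (ca cb : ℕ × ℕ) : V8 :=
  val0 u s dn a b c (Nat.mul a a) (Nat.mul b b) (Nat.mul c c) ca cb

/-! interpolation errors; `U V W` belong to the pairs `a b`, `a c`, `b c` (scale `2^40`) -/

def m1 (q : ℕ) : ℕ := nmin q 316659348799488
def m2 (q : ℕ) : ℕ := nmin q 633318697598976
def l3 (i j k U V W : ℕ) : ℕ := Nat.add (Nat.add (Nat.mul i U) (Nat.mul j V)) (Nat.mul k W)
def cd (x dn : ℕ) : ℕ := Nat.succ (Nat.div x dn)
def s3 (x y z : ℕ) : ℕ := Nat.add (Nat.add x y) z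
def mm (a i b j : ℕ) : ℕ := Nat.mul (Nat.pow a i) (Nat.pow b j)
noncomputable def err1 (u : Bool) (dn a b c e U V W : ℕ) : V8 :=
  ⟨cd (Nat.mul (Nat.mul 6 (Nat.mul e e)) (m1 (l3 4 4 4 U V W))) dn,
    cd (Nat.mul 2 (s3 (Nat.mul (mm a 3 b 3) (m1 (Nat.mul 9 U)))
      (Nat.mul (mm a 3 c 3) (m1 (Nat.mul 9 V))) (Nat.mul (mm b 3 c 3) (m1 (Nat.mul 9 W))))) dn,
    cd (s3 (Nat.mul (Nat.add (mm a 4 b 2) (mm a 2 b 4)) (m1 (Nat.mul 8 U)))
      (Nat.mul (Nat.add (mm a 4 c 2) (mm a 2 c 4)) (m1 (Nat.mul 8 V)))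
      (Nat.mul (Nat.add (mm b 4 c 2) (mm b 2 c 4)) (m1 (Nat.mul 8 W)))) dn,
    cd (s3 (Nat.mul (Nat.add (mm a 5 b 1) (mm a 1 b 5)) (m1 (Nat.mul 5 U)))
      (Nat.mul (Nat.add (mm a 5 c 1) (mm a 1 c 5)) (m1 (Nat.mul 5 V)))
      (Nat.mul (Nat.add (mm b 5 c 1) (mm b 1 c 5)) (m1 (Nat.mul 5 W)))) dn,
    cd (Nat.mul (Nat.mul 2 e) (s3 (Nat.mul (Nat.pow a 3) (m1 (l3 4 4 1 U V W)))
      (Nat.mul (Nat.pow b 3) (m1 (l3 4 1 4 U V W)))
      (Nat.mul (Nat.pow c 3) (m1 (l3 1 4 4 U V W))))) dn,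
    cd (Nat.mul e (Nat.add
      (s3 (Nat.mul (mm a 2 b 1) (m1 (l3 6 3 2 U V W))) (Nat.mul (mm a 2 c 1) (m1 (l3 3 6 2 U V W)))
        (Nat.mul (mm b 2 a 1) (m1 (l3 6 2 3 U V W))))
      (s3 (Nat.mul (mm b 2 c 1) (m1 (l3 3 2 6 U V W))) (Nat.mul (mm c 2 a 1) (m1 (l3 2 6 3 U V W)))
        (Nat.mul (mm c 2 b 1) (m1 (l3 2 3 6 U V W)))))) dn,
    Bool.rec 0 (cd (Nat.mul (Nat.mul 2 (Nat.mul e e))
      (s3 (m2 (l3 13 8 8 U V W)) (m2 (l3 8 13 8 U V W)) (m2 (l3 8 8 13 U V W)))) dn) u,
    Bool.rec 0 (cd (Nat.mul 2 (s3 (Nat.mul (mm a 3 b 3) (m2 (Nat.mul 18 U)))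
      (Nat.mul (mm a 3 c 3) (m2 (Nat.mul 18 V))) (Nat.mul (mm b 3 c 3) (m2 (Nat.mul 18 W))))) dn) u⟩
noncomputable def errs (u : Bool) (dn a b c U V W : ℕ) : V8 :=
  err1 u (Nat.mul dn 316659348799488) a b c (Nat.mul (Nat.mul a b) c) U V W
/-- upper bound for `(n / d)^2`, scale `2^40`; a big number if `d = 0` -/
noncomputable def vq (n d : ℕ) : ℕ :=
  Bool.rec (cd (Nat.shiftLeft (Nat.mul n n) 40) (Nat.mul d d)) 1125899906842624 (Nat.beq d 0)

/-- packed weights of the leaves, `96` bits per leaf -/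
structure Ctx where
  u : Bool
  one : ℕ
  msk : ℕ
  A : V8
  B : V8
  C : ℕ
  EA : V8
  EB : V8
  AB : V8
  e0 : ℕ

/-- channel coordinate times three -/
def gg (al be x y z : ℕ) : ℕ := Nat.add (Nat.mul al x) (Nat.mul be (Nat.add y z))
def lsq (n : ℕ) : ℕ := Nat.pow (nabs n 140737488355328) 2
def dnR (n : ℕ) : ℕ := Nat.shiftLeft (Nat.mul 3 (lsq n)) 166
def f1c : ℕ := Nat.shiftLeft 1 240
def alN (n : ℕ) : ℕ := Nat.mul 2 n
def beN (n : ℕ) : ℕ := Nat.sub 422212465065984 n

/-- data of one value of the channel parameter inside a patch -/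
structure Ep where
  k1 : ℕ
  k2 : ℕ
  eb : ℕ

noncomputable def row2 (c : Ctx) (e : Ep) (t xp tp v tt : ℕ) : Bool :=
  band (Nat.ble (Nat.add (Nat.shiftLeft (Nat.add tt e.eb) t) tp) 144115188075855871)
    (band (mskOK (Nat.sub (Nat.add v e.k1) (Nat.mul c.one (Nat.shiftLeft tt 38))) c.msk)
      (Bool.rec (mskOK (Nat.sub (Nat.add (Nat.shiftLeft v t) e.k2)
        (Nat.add xp (Nat.mul c.one (Nat.shiftLeft (Nat.sub (Nat.shiftLeft tt t) tp) 38)))) c.msk)
        true (Nat.beq t 0)))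
noncomputable def row1 (c : Ctx) (e : Ep) (t xp tp : ℕ) (r : V8) : Bool :=
  row2 c e t xp tp (Nat.add xp (V8.dot c.B r)) (Nat.add tp r.sum)
noncomputable def rowY (c : Ctx) (e : Ep) (dn t xp tp s g1 g2 g3 y1 y2 y3 : ℕ) : Bool :=
  band (band (rtOK g1 y1) (band (rtOK g2 y2) (rtOK g3 y3)))
    (band (Bool.rec true (band (csOK y3 y2) (csOK y2 y1)) c.u)
      (row1 c e t xp tp (vals c.u s dn y3 y2 y1 (cs y3 y2) (cs y2 y1))))
noncomputable def rowG (c : Ctx) (e : Ep) (dn t xp tp s g1 g2 g3 : ℕ) : Bool :=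
  rowY c e dn t xp tp s g1 g2 g3 (rt g1) (rt g2) (rt g3)
noncomputable def rowE (c : Ctx) (n : ℕ) (e : Ep) (t xp tp f2 f3 sf : ℕ) : Bool :=
  rowG c e (dnR n) t xp tp (Nat.shiftLeft (Nat.mul 6 sf) 48) (gg (alN n) (beN n) f1c f2 f3)
    (gg (alN n) (beN n) f2 f1c f3) (gg (alN n) (beN n) f3 f1c f2)
noncomputable def vtxX (c : Ctx) (two : Bool) (n m : ℕ) (e1 e2 : Ep) (t f2 f3 sf xp tp : ℕ) :
    Bool :=
  band (rowE c n e1 t xp tp f2 f3 sf) (Bool.rec true (rowE c m e2 t xp tp f2 f3 sf) two)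
noncomputable def vtxP (c : Ctx) (two : Bool) (n m : ℕ) (e1 e2 : Ep) (t f2 f3 sf mh : ℕ)
    (p : V8) : Bool :=
  vtxX c two n m e1 e2 t f2 f3 sf (Nat.add (V8.dot c.A p) (Nat.mul c.C mh)) (Nat.add p.sum mh)
noncomputable def vtxS (c : Ctx) (two : Bool) (n m : ℕ) (e1 e2 : Ep) (t Q P y2 y3 f2 f3 sf : ℕ) :
    Bool :=
  vtxP c two n m e1 e2 t f2 f3 sf (Nat.shiftRight sf 213)
    (vals c.u (Nat.mul 2 sf) (Nat.shiftLeft 1 214) 1099511627776 y2 y3 (cs 1048576 Q)
      (cs 1048576 P))
noncomputable def vtxF (c : Ctx) (two : Bool) (n m : ℕ) (e1 e2 : Ep) (t Q P y2 y3 f2 f3 : ℕ) :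
    Bool :=
  vtxS c two n m e1 e2 t Q P y2 y3 f2 f3 (Nat.add (Nat.add f1c f2) f3)
noncomputable def vtxY (c : Ctx) (two : Bool) (n m : ℕ) (e1 e2 : Ep) (t Q P y2 y3 : ℕ) : Bool :=
  vtxF c two n m e1 e2 t Q P y2 y3 (p6 y2) (p6 y3)
noncomputable def vtx1 (c : Ctx) (two : Bool) (n m : ℕ) (e1 e2 : Ep) (t Q P : ℕ) : Bool :=
  vtxY c two n m e1 e2 t Q P (Nat.shiftLeft Q 20) (Nat.mul Q P)
noncomputable def grid (c : Ctx) (two : Bool) (n m : ℕ) (e1 e2 : Ep) (t Q hq P hp : ℕ) : Bool :=
  allLt 5 fun i => frc (Nat.add Q (Nat.mul i hq)) fun x => allLt 5 fun j =>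
    frc (Nat.add P (Nat.mul j hp)) fun y => vtx1 c two n m e1 e2 t x y

/-- geometry of a patch: sixth powers of the ends (scale `2^120`) and the largest steps -/
structure Geo where
  q1 : ℕ
  q2 : ℕ
  p1 : ℕ
  p2 : ℕ
  dq : ℕ
  dp : ℕ

def Geo.l2 (g : Geo) : ℕ := Nat.shiftLeft g.q1 120
def Geo.l3 (g : Geo) : ℕ := Nat.mul g.q1 g.p1
def Geo.h2 (g : Geo) : ℕ := Nat.shiftLeft g.q2 120
def Geo.h3 (g : Geo) : ℕ := Nat.mul g.q2 g.p2
def Geo.sh (g : Geo) : ℕ := Nat.add (Nat.add f1c g.h2) g.h3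
def mkGeo (Q hq P hp : ℕ) : Geo :=
  ⟨p6 Q, p6 (Nat.add Q (Nat.mul 4 hq)), p6 P, p6 (Nat.add P (Nat.mul 4 hp)),
    Nat.sub (p6 (Nat.add Q (Nat.mul 4 hq))) (p6 (Nat.add Q (Nat.mul 3 hq))),
    Nat.sub (p6 (Nat.add P (Nat.mul 4 hp))) (p6 (Nat.add P (Nat.mul 3 hp)))⟩
noncomputable def errP1 (u : Bool) (Q Q2 P2 da db : ℕ) : V8 :=
  errs u (Nat.shiftLeft 1 214) 1099511627776 (Nat.shiftLeft Q2 20) (Nat.mul Q2 P2) da
    (Nat.add da db) (Nat.add db (vq 0 Q))
noncomputable def errP (u : Bool) (Q hq P hp : ℕ) : V8 :=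
  errP1 u Q (Nat.add Q (Nat.mul 4 hq)) (Nat.add P (Nat.mul 4 hp))
    (vq (Nat.sub (p6 (Nat.add Q hq)) (p6 Q)) (p6 Q)) (vq (Nat.sub (p6 (Nat.add P hp)) (p6 P)) (p6 P))
noncomputable def up (X : ℕ) : ℕ := Nat.add (rt X) 4
noncomputable def upOK (h1 h2 h3 : ℕ) : Bool :=
  band (Nat.ble h1 (p6 (up h1))) (band (Nat.ble h2 (p6 (up h2))) (Nat.ble h3 (p6 (up h3))))
/-- `x + y * z / 2^120`, scale `2^168` -/
def ln2 (x y z : ℕ) : ℕ := Nat.add (Nat.shiftLeft x 120) (Nat.mul y z)
noncomputable def vxy (na nb d : ℕ) : ℕ := Nat.add (vq na d) (vq nb d)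
noncomputable def errX1 (u : Bool) (g : Geo) (be ab dn na nb l1 l2 l3 h1 h2 h3 : ℕ) : V8 :=
  errs u dn (up h1) (up h2) (up h3)
    (vxy (Nat.mul na (ln2 ab be g.p2))
      (Nat.mul nb (Nat.mul be (Nat.sub (Nat.shiftLeft 1 120) g.q1))) (Nat.mul l1 l2))
    (vxy (Nat.mul na (ln2 be ab g.p2)) (Nat.mul nb (ln2 ab be g.q2)) (Nat.mul l1 l3))
    (vxy (Nat.mul na (Nat.mul be (Nat.sub (Nat.shiftLeft 1 120) g.p1)))
      (Nat.mul nb (ln2 be ab g.q2)) (Nat.mul l2 l3))
noncomputable def errX (u : Bool) (g : Geo) (al be dn : ℕ) : V8 :=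
  errX1 u g be (Nat.add al be) dn (Nat.shiftLeft (Nat.mul g.dq (nabs al be)) 240)
    (Nat.shiftLeft (Nat.mul (Nat.mul g.q2 g.dp) (nabs al be)) 120)
    (gg al be f1c g.l2 g.l3) (gg al be g.l2 f1c g.l3) (gg al be g.l3 f1c g.l2)
    (gg al be f1c g.h2 g.h3) (gg al be g.h2 f1c g.h3) (gg al be g.h3 f1c g.h2)
noncomputable def okX (g : Geo) (al be : ℕ) : Bool :=
  upOK (gg al be f1c g.h2 g.h3) (gg al be g.h2 f1c g.h3) (gg al be g.h3 f1c g.h2)
noncomputable def dlt (u : Bool) (dn : ℕ) : ℕ :=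
  Nat.add (Nat.div (Nat.shiftLeft (Bool.rec 1024 37749760 u) 240) dn) 2
noncomputable def mkEp1 (c : Ctx) (t er eb : ℕ) : Ep :=
  ⟨Nat.sub c.msk er, Nat.sub c.msk (Nat.shiftLeft er t), eb⟩
/-- `ep`: errors before the channel, `ex`: errors after it, `et`: errors weighted by `|b|` -/
noncomputable def mkEp (c : Ctx) (t : ℕ) (ep ex et : V8) : Ep :=
  mkEp1 c t
    (Nat.add (Nat.add (V8.dot c.EA ep) c.e0) (Nat.add (V8.dot c.EB ex) (V8.dot c.AB et)))
    (Nat.mul 2 (Nat.add (Nat.add ep.sum 40) (Nat.add ex.sum et.sum)))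
def cst (x : ℕ) : V8 := ⟨x, x, x, x, x, x, x, x⟩

/-- one value of the channel parameter -/
noncomputable def patZ (c : Ctx) (Q hq P hp n : ℕ) (g : Geo) : Bool :=
  band (Nat.ble 1 (lsq n)) (band (okX g (alN n) (beN n))
    ((fun e => grid c false n n e e 0 Q hq P hp)
      (mkEp c 0 (errP c.u Q hq P hp) (errX c.u g (alN n) (beN n) (dnR n))
        (cst (dlt c.u (dnR n))))))

noncomputable def errG1 (u : Bool) (g : Geo) (dn nn l1 l2 l3 h1 h2 h3 : ℕ) : V8 :=
  errs u dn (up h1) (up h2) (up h3) (vq (Nat.mul nn (Nat.sub f1c g.l2)) (Nat.mul l1 l2))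
    (vq (Nat.mul nn (Nat.sub f1c g.l3)) (Nat.mul l1 l3))
    (vq (Nat.mul nn (Nat.sub g.h2 (Nat.mul g.q2 g.p1))) (Nat.mul l2 l3))
def lo2 (n m x y z : ℕ) : ℕ := nmin (gg (alN n) (beN n) x y z) (gg (alN m) (beN m) x y z)
def hi2 (n m x y z : ℕ) : ℕ := nmax (gg (alN n) (beN n) x y z) (gg (alN m) (beN m) x y z)
noncomputable def errG (u : Bool) (g : Geo) (n m : ℕ) : V8 :=
  errG1 u g (dnR m) (Nat.shiftLeft (Nat.mul (Nat.mul 3 (Nat.sub m n)) g.sh) 48)
    (lo2 n m f1c g.l2 g.l3) (lo2 n m g.l2 f1c g.l3) (lo2 n m g.l3 f1c g.l2)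
    (hi2 n m f1c g.h2 g.h3) (hi2 n m g.h2 f1c g.h3) (hi2 n m g.h3 f1c g.h2)
noncomputable def patA1 (c : Ctx) (Q hq P hp n m t : ℕ) (g : Geo) (ep eg : V8) : Bool :=
  band (Nat.ble 1 t) (band (Nat.ble (Nat.shiftLeft (Nat.pow (Nat.sub m n) 2) t)
    (Nat.mul 4 (lsq m))) (grid c true n m
      (mkEp c t ep (V8.map2 Nat.add (errX c.u g (alN n) (beN n) (dnR n)) eg)
        (cst (dlt c.u (dnR n))))
      (mkEp c t ep (V8.map2 Nat.add (errX c.u g (alN m) (beN m) (dnR m)) eg)
        (cst (dlt c.u (dnR m)))) t Q hq P hp))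
/-- interpolation in the channel parameter by second derivative bounds -/
noncomputable def patA (c : Ctx) (Q hq P hp n m : ℕ) (g : Geo) : Bool :=
  band (Nat.ble (Nat.succ m) 140737488355328) (band (okX g (alN n) (beN n))
    (band (okX g (alN m) (beN m))
    (band (upOK (hi2 n m f1c g.h2 g.h3) (hi2 n m g.h2 f1c g.h3) (hi2 n m g.h3 f1c g.h2))
      (patA1 c Q hq P hp n m
        (Nat.log2 (nmin 2097152 (Nat.div (Nat.mul 4 (lsq m)) (Nat.pow (Nat.sub m n) 2)))) g
        (errP c.u Q hq P hp) (errG c.u g n m)))))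

/-- upper bound for one plus the chi-square of `(1, x, y)`, scale `2^20` -/
def ca1 (x y : ℕ) : ℕ :=
  cd (Nat.shiftLeft (Nat.mul 3 (s3 (Nat.mul f1c f1c) (Nat.mul x x) (Nat.mul y y))) 20)
    (Nat.pow (s3 f1c x y) 2)
def amx (g : Geo) : ℕ :=
  nmax (nmax (ca1 g.l2 g.l3) (ca1 g.l2 (Nat.mul g.q1 g.p2)))
    (nmax (ca1 g.h2 (Nat.mul g.q2 g.p1)) (ca1 g.h2 g.h3))
noncomputable def patB1 (c : Ctx) (Q hq P hp n m : ℕ) (g : Geo) (ep et : V8) : Bool :=
  grid c true n m
    (mkEp c 0 ep (errX c.u g (alN n) (beN n) (dnR n))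
      (V8.map2 Nat.add et (cst (dlt c.u (dnR n)))))
    (mkEp c 0 ep (errX c.u g (alN m) (beN m) (dnR m))
      (V8.map2 Nat.add et (cst (dlt c.u (dnR m))))) 0 Q hq P hp
/-- interpolation in the channel parameter by the Taylor expansion; `ut`, `wt` are tables -/
noncomputable def patB (c : Ctx) (ut wt : ℕ → V8) (k Q hq P hp n m : ℕ) (g : Geo) (a L : ℕ) :
    Bool :=
  band (band (Nat.ble k 16) (Nat.ble (Nat.mul (Nat.mul 2048 L) a)
      (Nat.shiftLeft (Nat.mul k k) 116)))
    (band (band (Nat.ble 1 (lsq n)) (Nat.ble 1 (lsq m)))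
    (band (band (okX g (alN n) (beN n)) (okX g (alN m) (beN m)))
      (patB1 c Q hq P hp n m g (errP c.u Q hq P hp)
        (V8.map2 (fun x y => Nat.succ (Nat.shiftRight (Nat.mul
          (Nat.add (Nat.mul (Nat.pow (Nat.sub m n) 2) x) (Nat.mul L y))
          (Nat.mul g.sh (Nat.mul a a))) 391)) (ut k) (wt k)))))

inductive KT where
  | s : KT
  | z : KT
  | a : KT
  | b (k : ℕ) : KT
  | q (x y : KT) : KT
  | p (x y : KT) : KT
  | l (x y : KT) : KT

noncomputable def divOK (wq wp : ℕ) : Bool :=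
  band (Nat.beq (Nat.mod wq 4) 0) (Nat.beq (Nat.mod wp 4) 0)

/-- the box is `[Q, Q + wq] × [P, P + wp] × [n, m]` -/
noncomputable def KT.go (c : Ctx) (ut wt : ℕ → V8) (T : KT) : ℕ → ℕ → ℕ → ℕ → ℕ → ℕ → Bool :=
  KT.rec (motive := fun _ => ℕ → ℕ → ℕ → ℕ → ℕ → ℕ → Bool)
    (fun Q wq P wp _ _ => band (divOK wq wp)
      (Nat.ble (amx (mkGeo Q (Nat.div wq 4) P (Nat.div wp 4))) 1179000))
    (fun Q wq P wp n m => band (divOK wq wp) (band (Nat.beq n m)
      (patZ c Q (Nat.div wq 4) P (Nat.div wp 4) n (mkGeo Q (Nat.div wq 4) P (Nat.div wp 4)))))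
    (fun Q wq P wp n m => band (divOK wq wp)
      (patA c Q (Nat.div wq 4) P (Nat.div wp 4) n m (mkGeo Q (Nat.div wq 4) P (Nat.div wp 4))))
    (fun k Q wq P wp n m => band (divOK wq wp)
      ((fun g => patB c ut wt k Q (Nat.div wq 4) P (Nat.div wp 4) n m g
        (Nat.sub (amx g) 1048576) (nmax (lsq n) (lsq m)))
        (mkGeo Q (Nat.div wq 4) P (Nat.div wp 4))))
    (fun _ _ x y Q wq P wp n m => band (x Q (Nat.div wq 2) P wp n m)
      (y (Nat.add Q (Nat.div wq 2)) (Nat.sub wq (Nat.div wq 2)) P wp n m))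
    (fun _ _ x y Q wq P wp n m => band (x Q wq P (Nat.div wp 2) n m)
      (y Q wq (Nat.add P (Nat.div wp 2)) (Nat.sub wp (Nat.div wp 2)) n m))
    (fun _ _ x y Q wq P wp n m => frc (Nat.div (Nat.add n m) 2) fun k =>
      band (x Q wq P wp n k) (y Q wq P wp k m)) T

/-- raw data of a job: positive and negative parts of the weights, scale `2^32` -/
structure Wt where
  u : Bool
  L : ℕ
  ap : V8
  am : V8
  bp : V8
  bm : V8
  cp : ℕ
  cm : ℕ

def ones (L : ℕ) : ℕ :=
  Nat.div (Nat.sub (Nat.shiftLeft 1 (Nat.mul 96 L)) 1) 79228162514264337593543950335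
def sel (f g : ℕ → ℕ → ℕ) (u v : V8) : V8 :=
  ⟨f u.x0 v.x0, f u.x1 v.x1, f u.x2 v.x2, f u.x3 v.x3, f u.x4 v.x4, f u.x5 v.x5, g u.x6 v.x6,
    g u.x7 v.x7⟩
noncomputable def mkCtx1 (w : Wt) (o om : ℕ) : Ctx :=
  ⟨w.u, o, mask 96 w.L, V8.map2 (fun x y => Nat.sub (Nat.add x om) y) w.ap w.am,
    V8.map2 (fun x y => Nat.sub (Nat.add y om) x) w.bp w.bm, Nat.sub (Nat.add w.cm om) w.cp,
    sel (fun x _ => x) Nat.add w.ap w.am, sel (fun _ y => y) Nat.add w.bp w.bm,
    V8.map2 Nat.add w.bp w.bm,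
    Nat.add (Nat.mul 4 (Nat.add w.ap.sum w.am.sum)) (Nat.add w.cp w.cm)⟩
noncomputable def mkCtx (w : Wt) : Ctx := mkCtx1 w (ones w.L) (Nat.shiftLeft (ones w.L) 38)

end Vale.Agent.P154
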